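import Crest.Agent.X212.Hp13.ExtA
import Crest.Agent.X212.Cyc79.Xg
import Crest.Agent.X212.Pb50.Act
import Crest.Agent.X212.Eqv71.Gau
import Crest.Agent.X212.Sob92.Iso

/-!
# Row 212, LV-EXT-B (helper33): transport of test spinors, forms at faces
-/

set_option autoImplicit false
set_option linter.unusedSectionVars false
noncomputable section
open scoped Manifold ContDiff Topology InnerProductSpace
open MeasureTheory Set Function Filter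

namespace Crest.Agent.X212.Ext33
open An Cyf70 Sw Flo2 Eqv71 Hp13.Ext
open M (Mf)

variable {κ lam ν : Type} [Fintype κ] [Fintype lam] [Fintype ν] [DecidableEq ν]
  {X X' : Mf 4} {nc nc' n : ℕ} {b : Bg X.I X.M κ lam ν nc} {b' : Bg X'.I X'.M κ lam ν nc'}
  {φ : OpenPartialHomeomorph X.M X'.M} {U : X.M → Option κ → Option κ → ℝ} {u : X.M → En ν}
  {α : Option κ → X.M → ℝ} {x : X.M}

section iso
variable (hb : b.OK) (hb' : b'.OK) (i : b.Iso b' φ U u α)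
include hb hb' i

theorem iso_vol (hx : x ∈ φ.source) (a : Eu ν) : b'.vol (φ x) (u x a) = u x (b.vol x a) := by
  obtain ⟨v, q⟩ := i.g
  have g : BE b.B x b'.B (φ x) (U x) (v x) :=
    ⟨q.UU x hx, q.UU' x hx, fun _ _ _ _ => by rw [q.o x hx]; simp only [rot4, smul_eq_mul, mul_assoc],
      q.vv x hx, q.vv' x hx, q.il x hx⟩
  have e : ∀ j w, b'.m.ρ j (φ x) (u x w) = ∑ a, U x j a • u x (b.m.ρ a x w) := fun j w => by
    simpa using congrArg (fun T : En ν => T w) (i.ρ x hx j)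
  have h1 : ∀ b₁ b₂ b₃ b₄, b'.m.ρ b₁ (φ x) (b'.m.ρ b₂ (φ x) (b'.m.ρ b₃ (φ x) (b'.m.ρ b₄ (φ x) (u x a))))
      = rot4 (U x) (fun a₁ a₂ a₃ a₄ =>
        u x (b.m.ρ a₁ x (b.m.ρ a₂ x (b.m.ρ a₃ x (b.m.ρ a₄ x a))))) b₁ b₂ b₃ b₄ := by
    intro b₁ b₂ b₃ b₄
    have k : ∀ c d w, b'.m.ρ c (φ x) (b'.m.ρ d (φ x) (u x w))
        = u x (∑ a₁, ∑ a₂, (U x c a₁ * U x d a₂) • b.m.ρ a₁ x (b.m.ρ a₂ x w)) := fun c d w => by
      simp only [e, map_sum, map_smul, Finset.smul_sum, smul_smul]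
      rw [Finset.sum_comm]
      simp only [mul_comm]
    rw [k, k]
    simp only [rot4, map_sum, map_smul, Finset.smul_sum, smul_smul, mul_assoc]
  simp only [Bg.vol, smul_apply, _root_.sum_apply, mul_apply_eq_comp, h1, map_smul, map_sum]
  rw [sum_rot4]
  simp only [← (g.symm hb.B hb'.B).o]

theorem iso_pp (hx : x ∈ φ.source) (a : Eu ν) : b'.pp (φ x) (u x a) = u x (b.pp x a) := by
  have : b'.m.p (φ x) (u x a) = u x (b.m.p x a) := by rw [← i.uu x hx, ← i.uu' x hx]; rfl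
  simp only [Bg.pp, smul_apply, sub_apply, iso_vol hb hb' i hx, map_smul, map_sub, this]

end iso

/-- the phase -/
def ph (b : Bg X.I X.M κ lam ν nc) (α : Option κ → X.M → ℝ) (j : Fin nc) (y : R4) : ℂ :=
  Kop92.K (leb R4) (b.ct j).ρ (b.ta j ⟨α, 0⟩) y * Complex.I

/-- the image of a test spinor -/
def tp (b : Bg X.I X.M κ lam ν nc) (u : X.M → En ν) (α : Option κ → X.M → ℝ) (j : Fin nc)
    (η : R4 → Eu ν) (y : R4) : Eu ν := u ((b.ct j).Ξ y) (cs b.m.J (Complex.exp (-ph b α j y)) (η y))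

theorem sm_cs {J : En ν} {z : R4 → ℂ} {η : R4 → Eu ν} (hz : ContDiff ℝ ∞ z) (h : ContDiff ℝ ∞ η) :
    ContDiff ℝ ∞ fun y => cs J (Complex.exp (z y)) (η y) := by
  simpa only [comp_apply, Pb50.cB_apply] using ((Pb50.cB J).contDiff.comp hz.cexp).clm_apply h

section tp
variable (hb : b.OK) (hb' : b'.OK) (i : b.Iso b' φ U u α) (hs : φ.source = univ) (j : Fin nc)
include hb i hs

theorem sm_u : ContDiff ℝ ∞ fun y => u ((b.ct j).Ξ y) :=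
  ((contMDiffOn_univ.1 (hs ▸ i.su)).comp (hb.ct j).sm).contDiff

theorem sm_ph : ContDiff ℝ ∞ (ph b α j) := by
  have C := hb.ct j
  obtain ⟨R, hR⟩ := Kop92.exists_sp C.cρ
  refine (Complex.ofRealCLM.contDiff.comp (Kop92.contDiff_K C.sρ hR ?_)).mul contDiff_const
  exact ((innerSL ℝ).contDiff.comp (contDiff_euclidean.2 fun k =>
    ((contMDiffOn_univ.1 (hs ▸ i.sα k)).comp C.sm).contDiff)).clm_comp C.sθ

include hb'
variable {Ξ : R4 → X'.M} (hΞ : ∀ y, Ξ y = φ ((b.ct j).Ξ y))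
include hΞ

theorem tst_tp {η : R4 → Eu ν} (h : b.Tst (b.ct j).Ξ η) : b'.Tst Ξ (tp b u α j η) :=
  ⟨(sm_u hb i hs j).clm_apply (sm_cs (sm_ph hb i hs j).neg h.sm),
    h.cpt.mono fun y hy e => hy (by simp [tp, cs, e]), fun y => by
      rw [hΞ, tp, iso_pp hb hb' i (hs ▸ trivial), Pb50.cs_comm (Pb50.Jpp hb _), h.pos]⟩

theorem tp_sur {η : R4 → Eu ν} (h : b'.Tst Ξ η) : ∃ η', b.Tst (b.ct j).Ξ η' ∧ tp b u α j η' = η := by
  have e : ∀ y, u ((b.ct j).Ξ y) (trn (u ((b.ct j).Ξ y)) (η y)) = η y := fun y => by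
    rw [← h.pos y, hΞ]
    exact congrArg (fun T : En ν => T _)
      ((congrArg (· * _) (i.uu' _ (hs ▸ trivial))).trans (Pb50.p_pp hb' _))
  refine ⟨fun y => cs b.m.J (Complex.exp (ph b α j y)) (trn (u ((b.ct j).Ξ y)) (η y)),
    ⟨sm_cs (sm_ph hb i hs j) ((trnL.contDiff.comp (sm_u hb i hs j)).clm_apply h.sm),
      h.cpt.mono fun y hy e => hy (by simp [cs, e]), fun y => ?_⟩, funext fun y => ?_⟩
  · have := congrArg (trn (u ((b.ct j).Ξ y))) (iso_pp hb hb' i (x := (b.ct j).Ξ y) (hs ▸ trivial)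
      (trn (u ((b.ct j).Ξ y)) (η y)))
    rw [e, ← hΞ, h.pos] at this
    rw [Pb50.cs_comm (Pb50.Jpp hb _)]
    exact congrArg _ ((congrArg (fun T : En ν => T _) ((congrArg (· * _) (i.uu _ (hs ▸ trivial))).trans
      (Pb50.p_pp hb _))).symm.trans this.symm)
  · rw [tp, cs_mul hb.m.Jsq, ← Complex.exp_add, neg_add_cancel, Complex.exp_zero, cs_one, e]

end tp

theorem frm_congr {b' : Bg X.I X.M κ lam ν nc'} (hB : b.B = b'.B) (hG : b.G = b'.G)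
    (f g h : Fin n → X.M → ℝ) : frm b f g h = frm b' f g h := by
  ext x s
  simp only [Cyc79.frm_apply, Bg.F, hB, hG]

theorem tst_congr {b' : Bg X.I X.M κ lam ν nc'} (hB : b.B = b'.B) (hm : b.m = b'.m) {Ξ : R4 → X.M}
    {η : R4 → Eu ν} (h : b.Tst Ξ η) : b'.Tst Ξ η :=
  ⟨h.sm, h.cpt, fun y => by simpa only [Bg.pp, Bg.vol, hB, hm] using h.pos y⟩

theorem cast_pz {N : Type} {e : N → En3 κ lam ν} (h : nc = nc') (P : Pz X nc e) (hP : P.bg.OK) :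
    (h ▸ P : Pz X nc' e).bg.OK ∧ (h ▸ P : Pz X nc' e).bg.B = P.bg.B ∧
      (h ▸ P : Pz X nc' e).bg.G = P.bg.G ∧ (h ▸ P : Pz X nc' e).bg.m = P.bg.m ∧
      ∀ j, (h ▸ P : Pz X nc' e).bg.ct j = P.bg.ct (j.cast h.symm) := by
  subst h; exact ⟨hP, rfl, rfl, rfl, fun _ => rfl⟩

variable {g g' : Gc κ lam ν}

theorem bgok (hg : g.OK) (t : Tk g.k) : (g.P t).bg.OK := (hg.fam.ok t (hg.Q ▸ trivial)).bg

/-- spinors in the boxes -/
abbrev Sp (g : Gc κ lam ν) : Type := Fin g.nc → R4 → Eu ν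

/-- test spinors -/
def Ts (g : Gc κ lam ν) (η : Sp g) : Prop := ∀ j t, (g.P t).bg.Tst ((g.P t).bg.ct j).Ξ (η j)

theorem ts_of (hg : g.OK) {j : Fin g.nc} {η : R4 → Eu ν} {t : Tk g.k}
    (h : (g.P t).bg.Tst ((g.P t).bg.ct j).Ξ η) (t' : Tk g.k) :
    (g.P t').bg.Tst ((g.P t').bg.ct j).Ξ η := by
  have q : ∀ t, t ∈ g.𝓕.Q := fun t => hg.Q ▸ trivial
  rw [show ((g.P t').bg.ct j).Ξ = _ from (hg.fam.ct t' (q _) t (q _) j).1]
  exact tst_congr ((hg.fam.B t (q _)).trans (hg.fam.B t' (q _)).symm)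
    ((hg.fam.m t (q _)).trans (hg.fam.m t' (q _)).symm) h

/-- a transport of test spinors -/
structure Tp (g' g : Gc κ lam ν) (T : Sp g' → Sp g) : Prop where
  ts : ∀ η, Ts g' η → Ts g (T η)
  z : T 0 = 0
  sur : ∀ η, Ts g η → ∃ η', Ts g' η' ∧ T η' = η

/-- the form of a system of functions -/
def fm (g : Gc κ lam ν) (F : Fin 3 → Fin n → Sc g) (t : Tk g.k) : g.X.M → F2 κ :=
  frm (g.P t).bg (fun a => F 0 a t) (fun a => F 1 a t) fun a => F 2 a t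

/-- the forms come from corresponding functions -/
def FoN (D : Set (Tk g.k)) (ι : Fin g'.k → Fin g.k) (φ : g'.X.M → g.X.M)
    (fo : Tk g.k → g.X.M → F2 κ) (fo' : Tk g'.k → g'.X.M → F2 κ) : Prop :=
  ∃ (n : ℕ) (F : Fin 3 → Fin n → Sc g) (F' : Fin 3 → Fin n → Sc g'), (∀ i a, (F i a).OK) ∧
    fo = fm g F ∧ fo' = fm g' F' ∧ ∀ i a, ∀ t ∈ D, ∀ y, F i a t (φ y) = F' i a (t ∘ ι) y

/-- the transport at a face -/
def FT (D : Set (Tk g.k)) (ι : Fin g'.k → Fin g.k) (φ : OpenPartialHomeomorph g'.X.M g.X.M) (m : ℤ)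
    (T : Sp g' → Sp g) : Prop := Tp g' g T ∧ ∀ (W : Type) (τ : Tm g W) (τ' : Tm g' W),
  (∀ w, FoN D ι φ (τ.fo w) (τ'.fo w)) → (∀ w, ∀ t ∈ D, τ.η w t = T (τ'.η w (t ∘ ι))) →
    ∀ m', g'.gau g'.pin (-m) = g'.gau g'.pin (-m') → g.FcT g' D ι φ m' τ τ'

theorem fc_tp {D ι φ m} (H : g.Fc g' D ι φ m) (hg : g.OK) (hg' : g'.OK) {t₀ : Tk g.k} (h₀ : t₀ ∈ D)
    (hD : g.nc ≠ 0 → ∀ t ∈ D, t = t₀) : ∃ T, FT D ι φ m T := by
  obtain ⟨h, r, a1, -, a2, a3, a4, k⟩ := H.iso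
  choose! γ U u α k1 k2 using k
  have c := fun t => cast_pz h (g.P t) (bgok hg t)
  have B := k2 t₀ h₀
  have hΞ : ∀ j : Fin g.nc, ∀ y, ((g.P t₀).bg.ct j).Ξ y = φ (((g'.P (t₀ ∘ ι)).bg.ct (j.cast h)).Ξ y) :=
    fun j y => by have := B.Ξ (j.cast h) y; rwa [(c t₀).2.2.2.2] at this
  refine ⟨fun η j => tp (g'.P (t₀ ∘ ι)).bg (u t₀) (α t₀) (j.cast h) (η (j.cast h)),
    ⟨fun η e j => ts_of hg (tst_congr (c t₀).2.1 (c t₀).2.2.2.1
      (tst_tp (bgok hg' _) (c t₀).1 B.iso B.src _ (hΞ j) (e _ _))), by ext; simp [tp, cs],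
      fun η e => ?_⟩, fun W τ τ' e1 e2 m' e3 => ⟨h, r, a1, a2, a3, a4, fun t ht =>
        ⟨γ t, U t, u t, α t, e3 ▸ k1 t ht, k2 t ht, fun w => ⟨fun x s => ?_, fun j y => ?_⟩⟩⟩⟩
  · choose η' e1 e2 using fun j : Fin g'.nc => tp_sur (bgok hg' _) (c t₀).1 B.iso B.src j
      (hΞ (j.cast h.symm)) (tst_congr (c t₀).2.1.symm (c t₀).2.2.2.1.symm (e _ t₀))
    exact ⟨η', fun j => ts_of hg' (e1 j), funext fun j => e2 (j.cast h)⟩
  · obtain ⟨n, F, F', o, b1, b2, b3⟩ := e1 w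
    rw [b1, b2, fm, ← frm_congr (c t).2.1 (c t).2.2.1, Cyc79.xf_nat (bgok hg' _) (c t).1 (k2 t ht).iso
      _ _ _ (fun a => ⟨(o 1 a).sm.sm trivial, (o 2 a).sm.sm trivial⟩) ((k2 t ht).src ▸ trivial)]
    simp only [fm, comp_def, b3 _ _ t ht]
  · obtain rfl := hD (h ▸ j.pos.ne') t ht
    rw [e2 w t ht]
    rfl

end Crest.Agent.X212.Ext33
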