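import Crest.Agent.X212.Ext33.Sys

/-!
# Row 212, LV-EXT-B (helper33): consistent terms exist
-/

set_option autoImplicit false
set_option linter.unusedSectionVars false
noncomputable section
open scoped Manifold ContDiff Topology InnerProductSpace
open MeasureTheory Set Function Filter

namespace Crest.Agent.X212.Ext33
open An Cyf70 Sw Flo2 Hp13.Ext Sob92

variable {κ lam ν : Type} [Fintype κ] [Fintype lam] [Fintype ν] [DecidableEq ν]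
  {g : Gc κ lam ν} {x : Nod κ lam ν} {n : ℕ} {F : Fin 3 → Fin n → Sc g} {𝒦 : Set (Nod κ lam ν)}
  {mk : Mk κ lam ν}

theorem cf_all (o : ∀ i a, (F i a).OK) : ∃ r, ∀ t, ∀ x ∉ g.s.core r, fm g F t x = 0 := by
  choose r hr using fun a => (o 0 a).cf
  obtain ⟨R, hR⟩ := Finite.bddAbove_range r
  exact ⟨R, fun t x hx => frm_zero fun a => hr a t x fun k => hx fun i s K e j m => k i s K e j
    (image_mono (Set.prod_mono_right fun τ (h : τ ∈ K.far s R) =>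
      (⟨h.1, (hR ⟨a, rfl⟩).trans_lt h.2⟩ : τ ∈ K.far s (r a))) m)⟩

theorem bd_of (hg : g.OK) (o : ∀ i a, (F i a).OK)
    (hw : ∀ c, g.wl c ≠ none → ∃ T s, ∀ t, T ≤ t c → Bd g (fm g F) s t) :
    ∃ s, ∀ t, Bd g (fm g F) s t := by
  choose! T s h using hw
  obtain ⟨r, hr⟩ := cf_all o
  obtain ⟨s₀, h₀⟩ := Cyc79.xf_bds hg (Cyc79.xf_fam hg o).2 hr
    (isCompact_univ_pi fun c => isCompact_Icc (a := 0) (b := max 1 (T c)))
  obtain ⟨S, hS⟩ := Finite.bddAbove_range s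
  have m : ∀ {s s' t}, s ≤ s' → Bd g (fm g F) s t → Bd g (fm g F) s' t := fun k j =>
    ⟨CB_mono j.1 k, j.2.trans k⟩
  refine ⟨max s₀ S, fun t => ?_⟩
  have G : (g.P t).bg.G = (g.P (g.clp t)).bg.G := by rw [hg.G, hg.G, ← hg.ret]
  have e : fm g F t = fm g F (g.clp t) := by
    simp only [fm, ← fun i a => (o i a).ret t]
    exact frm_congr ((hg.fam.B _ (hg.Q ▸ trivial)).trans (hg.fam.B _ (hg.Q ▸ trivial)).symm) G _ _ _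
  suffices Bd g (fm g F) (max s₀ S) (g.clp t) by rw [Bd, e, Bg.F, G]; exact this
  by_cases k : ∀ c, g.clp t c ≤ max 1 (T c)
  · exact m (le_max_left _ _) (h₀ _ fun c _ => ⟨(clp_dom t c).1, k c⟩)
  · obtain ⟨c, k⟩ := not_forall.1 k
    exact m ((hS ⟨c, rfl⟩).trans (le_max_right _ _)) (h c (fun j => k (((clp_dom t c).2 j).trans
      (le_max_left _ _))) _ ((le_max_right _ _).trans (not_le.1 k).le))

theorem tm_ok (hg : g.OK) {W : Type} {τ : Tm g W} (h : ∀ w, ∃ (n : ℕ) (F : Fin 3 → Fin n → Sc g),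
    (∀ i a, (F i a).OK) ∧ τ.fo w = fm g F ∧ EK g (τ.η w) ∧ (∃ s, ∀ t, Bd g (fm g F) s t) ∧
      ∀ c, ∀ i ∈ g.wl c, ∃ r, ∀ t, ∀ K ∈ (g.P t).nk i, ∀ x ∈ univ ×ˢ K.deep r,
        fm g F t (K.ψ x) = 0) : τ.OK := by
  choose n F o e k b z using h
  refine ⟨fun w => e w ▸ (Cyc79.xf_fam hg (o w)).1, fun w => e w ▸ (Cyc79.xf_fam hg (o w)).2,
    fun w => e w ▸ cf_all (o w), fun w => e w ▸ z w, fun w t j => (k w).1 t j t, fun w => (k w).2.1,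
    fun w => ?_⟩
  obtain ⟨s, b⟩ := b w
  obtain ⟨s', k⟩ := (k w).2.2
  exact ⟨max s s', fun t => e w ▸ ⟨CB_mono (b t).1 (le_max_left _ _), (b t).2.trans (le_max_left _ _),
    fun j => (k t j).trans (le_max_right _ _)⟩⟩

/-- consistent systems -/
structure Sy (𝒦 : Set (Nod κ lam ν)) : Type 1 where
  n : ℕ
  F : Fin 3 → Fin n → ∀ x : Nod κ lam ν, Sc x.1
  V : VS κ lam ν
  hF : ∀ i a, ∀ x ∈ 𝒦, (F i a x).OK ∧ Con x (F i a x) (F i a)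
  hV : VK V

namespace Sy
variable (w : Sy 𝒦)

/-- the forms -/
abbrev fo (x : Nod κ lam ν) : Tk x.1.k → x.1.X.M → F2 κ := fm x.1 fun i a => w.F i a x

/-- the functions on the literal second pieces -/
def F' (x : Nod κ lam ν) (c : Fin x.1.k) (i : Fin 3) (a : Fin w.n) : Sc (x.2.nd.g2' c) := fun t =>
  psh (x.2.nd.φ2 c) (w.F i a ⟨_, x.2.f2 c⟩ (t ∘ x.2.nd.ι3 c))

/-- the values on a node -/
def val (x : Nod κ lam ν) := (w.fo x, ets w.V x,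
  fun c => (fm _ (w.F' x c), fun _ : Tk (x.2.nd.g2' c).k => (nd x).T2 c (w.V ⟨_, x.2.f2 c⟩ 0)))

variable (hc : Cld 𝒦) (hx : x ∈ 𝒦) {c : Fin x.1.k} {i : x.1.N} (hi : x.1.wl c = some i)
include hc hx hi

theorem ok' (j : Fin 3) (a : Fin w.n) : (w.F' x c j a).OK :=
  ok_psh (x.2.nd.wl c i hi).2.2.2.1 ⟨0, zero_dom _⟩ (x.2.f2 c).nd.ok
    (w.hF j a _ ((hc x hx c).2.2 (by simp [hi]))).1

theorem wl' : ∃ T, (∀ t, T ≤ t c → w.fo x t = psh (x.2.nd.l c (t c)) (w.fo ⟨_, x.2.f1 c⟩ (t ∘ x.2.nd.ι1 c)) +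
      psh (x.2.nd.r c (t c)) (fm _ (w.F' x c) (t ∘ x.2.nd.ι2 c))) ∧
    (∀ t, ∀ K ∈ (x.1.P t).nk i, ∀ y ∈ univ ×ˢ K.deep T, w.fo x t (K.ψ y) = 0) ∧
    ∀ s₁ s₂, (∀ t, Bd _ (w.fo ⟨_, x.2.f1 c⟩) s₁ t) → (∀ t, Bd _ (fm _ (w.F' x c)) s₂ t) →
      ∀ t, T ≤ t c → Bd _ (w.fo x) (|s₁| + |s₂|) t :=
  wall (x.2.nd.wl c i hi).1 x.2.nd.ok (x.2.f1 c).nd.ok (x.2.nd.wl c i hi).2.1 hi
    (fun j a => (w.hF j a x hx).1) (fun j a => (w.hF j a _ (hc x hx c).2.1).1) (w.ok' hc hx hi)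
    fun j a => ((w.hF j a x hx).2.wl c (by simp [hi])).imp fun _ k t ht => by
      rw [k t ht, psh_trans]; rfl

theorem wl2 (hk : x.2.nd.cap c = false) : ∃ T, (∀ t, T ≤ t c → w.fo x t =
      psh (x.2.nd.l c (t c)) (w.fo ⟨_, x.2.f1 c⟩ (t ∘ x.2.nd.ι1 c)) +
      psh ((x.2.nd.φ2 c).trans (x.2.nd.r c (t c)))
        (w.fo ⟨_, x.2.f2 c⟩ (t ∘ x.2.nd.ι2 c ∘ x.2.nd.ι3 c))) ∧
    ∀ s₁ s₂, (∀ t, Bd _ (w.fo ⟨_, x.2.f1 c⟩) s₁ t) → (∀ t, Bd _ (w.fo ⟨_, x.2.f2 c⟩) s₂ t) →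
      ∀ t, T ≤ t c → Bd _ (w.fo x) (|s₁| + |s₂|) t :=
  (wall (wl_lit (x.2.nd.wl c i hi).1 (x.2.nd.lit c hk)) x.2.nd.ok (x.2.f1 c).nd.ok (x.2.f2 c).nd.ok hi
    (fun j a => (w.hF j a x hx).1) (fun j a => (w.hF j a _ (hc x hx c).2.1).1)
    (fun j a => (w.hF j a _ ((hc x hx c).2.2 (by simp [hi]))).1)
    fun j a => (w.hF j a x hx).2.wl c (by simp [hi])).imp fun _ k => ⟨k.1, k.2.2⟩

theorem bd' (hk : x.2.nd.cap c = true) : ∃ s, ∀ t, Bd _ (fm _ (w.F' x c)) s t :=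
  bd_of (x.2.nd.wl c i hi).2.1 (w.ok' hc hx hi) fun c' k => (k (x.2.nd.cw c hk c')).elim

omit hi in
theorem bd : ∃ s, ∀ t, Bd _ (w.fo x) s t := by
  revert hx
  refine (measure fun x : Nod κ lam ν => x.1.k).wf.induction
    (C := fun x => x ∈ 𝒦 → ∃ s, ∀ t, Bd _ (w.fo x) s t) x fun x ih hx => ?_
  refine bd_of x.2.nd.ok (fun j a => (w.hF j a x hx).1) fun c h => ?_
  obtain ⟨i, hi⟩ := Option.ne_none_iff_exists'.1 h
  obtain ⟨s₁, b₁⟩ := ih _ (ch_lt ⟨c, .inr (.inl rfl)⟩) (hc x hx c).2.1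
  cases hk : x.2.nd.cap c
  · obtain ⟨s₂, b₂⟩ := ih _ (ch_lt ⟨c, .inr (.inr ⟨h, rfl⟩)⟩) ((hc x hx c).2.2 h)
    obtain ⟨T, -, k⟩ := w.wl2 hc hx hi hk
    exact ⟨T, _, k _ _ b₁ b₂⟩
  · obtain ⟨s₂, b₂⟩ := w.bd' hc hx hi hk
    obtain ⟨T, -, -, k⟩ := w.wl' hc hx hi
    exact ⟨T, _, k _ _ b₁ b₂⟩

omit hc hx hi in
theorem e2 (h : x.1.wl c ≠ none) (s) : (nd x).T2 c (w.V ⟨_, x.2.f2 c⟩ 0) =
    (nd x).T2 c (ets w.V ⟨_, x.2.f2 c⟩ s) := by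
  by_cases n : (x.2.nd.g2' c).nc = 0
  · exact sp0 n _ _
  · rw [ets_ch (k2' h n).1 ⟨c, .inr (.inr ⟨h, rfl⟩)⟩]

end Sy

/-- the system of a family of test spinors -/
def Sy.ofV (𝒦 : Set (Nod κ lam ν)) {V : VS κ lam ν} (h : VK V) : Sy 𝒦 :=
  ⟨0, fun _ a => a.elim0, V, fun _ a => a.elim0, h⟩

theorem fm_zero (F : Fin 3 → Fin 0 → Sc g) (t : Tk g.k) : fm g F t = 0 :=
  funext fun _ => frm_zero fun a => a.elim0

theorem fo_rich (hc : Cld 𝒦) (hw : ∀ x ∈ 𝒦, x.2.WF mk) (hx : x ∈ 𝒦) {t : Tk x.1.k} (ht : t ∈ x.1.dom)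
    {f g h : Fin n → x.1.X.M → ℝ} (hf : ∀ a, f a ∈ Sec x.1.X.I (triv x.1.X.M ℝ) ∧
      g a ∈ Sec x.1.X.I (triv x.1.X.M ℝ) ∧ h a ∈ Sec x.1.X.I (triv x.1.X.M ℝ)) :
    ∃ (F : Fin 3 → Fin n → ∀ x : Nod κ lam ν, Sc x.1), (∀ i a, ∀ x ∈ 𝒦, (F i a x).OK ∧
      Con x (F i a x) (F i a)) ∧ ∀ a, F 0 a x t = f a ∧ F 1 a x t = g a ∧ F 2 a x t = h a := by
  choose F a b using fun (i : Fin 3) a => sc_rich hc hw hx ht (f := ![f, g, h] i a) (by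
    fin_cases i
    exacts [(hf a).1, (hf a).2.1, (hf a).2.2])
  exact ⟨F, a, fun a => ⟨b 0 a, b 1 a, b 2 a⟩⟩

theorem small_rep {A B : Type 1} [Small.{0} B] [Nonempty A] (res : A → B) :
    ∃ (W : Type) (_ : Nonempty W) (ρ : W → A), ∀ a, ∃ w, res (ρ w) = res a :=
  ⟨Shrink B, ⟨equivShrink B (res (Classical.arbitrary A))⟩, fun w => invFun res ((equivShrink B).symm w),
    fun a => ⟨equivShrink B (res a), by simp only [Equiv.symm_apply_apply, invFun_eq ⟨a, rfl⟩]⟩⟩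

/-- **LV-EXT-B** -/
theorem extStmt (mk : Mk κ lam ν) : ExtStmt mk := fun 𝒦 hf hc hw => by
  have := hf.to_subtype
  have : Nonempty (Sy 𝒦) := ⟨.ofV 𝒦 vk0⟩
  obtain ⟨W, ne, ρ, h⟩ := small_rep fun (w : Sy 𝒦) (x : 𝒦) => w.val x
  replace h : ∀ a : Sy 𝒦, ∀ x ∈ 𝒦, ∃ w, (ρ w).val x = a.val x := fun a x hx =>
    (h a).imp fun w k => congrFun k ⟨x, hx⟩
  refine ⟨⟨W, fun x => ⟨fun w => (ρ w).fo x, fun w => ets (ρ w).V x⟩, fun x c =>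
    ⟨fun w => ((ρ w).val x).2.2 c |>.1, fun w => ((ρ w).val x).2.2 c |>.2⟩,
    fun x hx => ⟨tm_ok x.2.nd.ok fun w => ⟨_, _, fun i a => ((ρ w).hF i a x hx).1, rfl,
      ek_ets (ρ w).hV x, (ρ w).bd hc hx, fun c i hi => ((ρ w).wl' hc hx hi).imp fun _ k => k.2.1⟩,
      fun t ht => ⟨fun f k => ?_, fun j η k => ?_⟩⟩,
    fun x hx c => ((nd x).f0 c).2 _ _ _ (fun w => ⟨_, _, _, fun i a => ((ρ w).hF i a x hx).1, rfl, rfl,
      fun i a t ht => ((ρ w).hF i a x hx).2.f0 c t ht.1 ht.2⟩) (fun w t ht => ets_f0 (ρ w).hV ht.2 _) _ rfl,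
    fun x hx c e => ?_, fun x hx c i hi hk => ((nd x).nk c i hi hk).2.2 _ _ _ _ fun w => ?_,
    fun x hx c i hi hk => ?_⟩⟩
  · obtain ⟨n, f, g, k, a, rfl⟩ := Cyc79.xf_all (bgok x.2.nd.ok t) k
    obtain ⟨F, b1, b2⟩ := fo_rich hc hw hx ht a
    obtain ⟨w, e⟩ := h ⟨n, F, 0, b1, vk0⟩ x hx
    exact ⟨w, (congrFun (congrArg (·.1) e) t).trans (by simp only [Sy.val, Sy.fo, fm, b2]),
      (congrFun (congrArg (·.2.1) e) t).trans (ets_zero x t)⟩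
  · obtain ⟨V, a, b⟩ := ets_rich ht (ts_single x.2.nd.ok k)
    obtain ⟨w, e⟩ := h (.ofV 𝒦 a) x hx
    exact ⟨w, (congrFun (congrArg (·.1) e) t).trans (fm_zero (fun _ a => a.elim0) t),
      (congrFun (congrArg (·.2.1) e) t).trans b⟩
  · obtain ⟨T, a, b⟩ := (nd x).f1 c e
    exact a.2 _ _ _ (fun w => ⟨_, _, _, fun i a => ((ρ w).hF i a x hx).1, rfl, rfl,
      fun i a t ht => ((ρ w).hF i a x hx).2.f1 c e t ht.1 ht.2⟩) (fun w t ht =>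
        ((ets_f1 (ρ w).hV c).choose_spec t (.inl ⟨e, ht.2⟩) _).trans (b _ _)) _ rfl
  · obtain ⟨T, a, -⟩ := (ρ w).wl2 hc hx hi hk
    obtain ⟨T', b⟩ := ets_f1 (ρ w).hV c
    refine ⟨max T T', fun t ht => ⟨a t (le_of_max_le_left ht), ?_⟩⟩
    by_cases n : x.1.nc = 0
    · exact sp0 n _ _
    · exact (b t (.inr (le_of_max_le_right ht)) _).trans (congrArg _
        (ets_ch n ⟨c, .inr (.inr ⟨by simp [show x.1.wl c = some i from hi], rfl⟩)⟩ _).symm)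
  have e : x.1.wl c ≠ none := by simp [show x.1.wl c = some i from hi]
  obtain ⟨-, o, -, fc, fx⟩ := x.2.nd.wl c i hi
  have gl := fc_gl fc ⟨0, zero_dom _⟩
  have N := (nd x).f2 c e
  have m := (hc x hx c).2.2 e
  refine ⟨tm_ok o fun w => ⟨_, _, (ρ w).ok' hc hx hi, rfl, by
      simpa [Sy.val] using ek_smul (b := 1) contDiff_const (by simp) (N.1.ts _ ((ρ w).hV.ts ⟨_, x.2.f2 c⟩ 0)),
      (ρ w).bd' hc hx hi hk, fun c' i' k => by simp [x.2.nd.cw c hk c'] at k⟩,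
    fun t ht => ⟨fun f k => ?_, fun j η k => ?_⟩, ?_, fun n hn => ?_⟩
  · obtain ⟨n, f, g, k, a, rfl⟩ := Cyc79.xf_all (bgok o t) k
    obtain ⟨F, b1, b2⟩ := fo_rich hc hw m ((fc_mt fc).dom ht) fun j =>
      ⟨sec_fc fc ⟨t, ht⟩ (a j).1, sec_fc fc ⟨t, ht⟩ (a j).2.1, sec_fc fc ⟨t, ht⟩ (a j).2.2⟩
    obtain ⟨w, e⟩ := h ⟨n, F, 0, b1, vk0⟩ x hx
    have p : ∀ u : (x.2.nd.g2' c).X.M → ℝ, psh (x.2.nd.φ2 c) (u ∘ x.2.nd.φ2 c) = u := fun u =>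
      ((eq_psh gl.1 gl.2.1).2 fun _ => rfl).symm
    exact ⟨w, (congrFun (congrArg (fun v => (v.2.2 c).1) e) t).trans (by
      simp only [Sy.val, Sy.F', fm, b2, p]), (congrFun (congrArg (fun v => (v.2.2 c).2) e) t).trans N.1.z⟩
  · obtain ⟨η', a, b⟩ := N.1.sur _ (ts_single o k)
    obtain ⟨V, a1, a2, -⟩ := vk_ex (y := ⟨_, x.2.f2 c⟩) (t := 0) (fun c' => by
      have := k_le x.2.nd.ok (k2' e j.pos.ne').1
      have := ch_lt (x := x) ⟨c, .inr (.inr ⟨e, rfl⟩)⟩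
      have := c'.2
      omega) a
    obtain ⟨w, e⟩ := h (.ofV 𝒦 a1) x hx
    exact ⟨w, (congrFun (congrArg (fun v => (v.2.2 c).1) e) t).trans (fm_zero _ t),
      (congrFun (congrArg (fun v => (v.2.2 c).2) e) t).trans ((congrArg _ a2).trans b)⟩
  · obtain ⟨T₀, a, b⟩ := (nd x).cp c i hi hk
    refine a.2.2 _ _ _ _ fun w => ?_
    obtain ⟨T, d, -⟩ := (ρ w).wl' hc hx hi
    obtain ⟨T', d'⟩ := ets_f1 (ρ w).hV c
    exact ⟨max T T', fun t ht => ⟨d t (le_of_max_le_left ht),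
      (d' t (.inr (le_of_max_le_right ht)) _).trans (b _ _)⟩⟩
  have fn := fun w : W => show FoN (x.2.nd.g2' c).dom (x.2.nd.ι3 c) (x.2.nd.φ2 c) _ ((ρ w).fo ⟨_, x.2.f2 c⟩)
    from ⟨_, _, _, (ρ w).ok' hc hx hi, rfl, rfl, fun i a t _ y => psh_app (gl.1 ▸ trivial)⟩
  by_cases z : (x.2.nd.g2' c).nc = 0
  · obtain ⟨T, k⟩ := fc_tp (hn.elim (· ▸ fc) (fx · n)) o (x.2.f2 c).nd.ok (zero_dom _) fun k => (k z).elim
    exact k.2 _ _ _ fn (fun _ _ _ => sp0 z _ _) _ rfl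
  · refine N.2 _ _ _ fn (fun w t _ => (ρ w).e2 e _) _ (funext fun j => funext fun y => ?_)
    obtain k | k := (x.2.f2 c).nd.ok.kin
    · unfold Gc.gau
      split_ifs with p
      · rw [show ((x.2.nd.g2 c).en j).u y = 1 from congrFun (((hw _ m).all.1 j).qhs (k j p)).2.1 y,
          one_zpow, one_zpow]
      · rfl
    · exact (z (fc.iso.choose.trans k.2.2.1)).elim

end Crest.Agent.X212.Ext33
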