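import Crest.Agent.X212.Ext33.Wall

/-!
# Row 212, LV-EXT-B (helper33): consistent test spinors, consistent functions
-/

set_option autoImplicit false
set_option linter.unusedSectionVars false
noncomputable section
open scoped Manifold ContDiff Topology InnerProductSpace
open MeasureTheory Set Function Filter

namespace Crest.Agent.X212.Ext33
open An Cyf70 Sw Flo2 Hp13.Ext Sob92
open Real (smoothTransition)

variable {κ lam ν : Type} [Fintype κ] [Fintype lam] [Fintype ν] [DecidableEq ν]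
  {g g' : Gc κ lam ν} {x y : Nod κ lam ν} {t : Tk g.k}

theorem k_le (hg : g.OK) (h : g.nc ≠ 0) : g.k ≤ 1 := by
  have := hg.k2; have := mt hg.nc2 h; omega

theorem sub1 (hg : g.OK) (h : g.nc ≠ 0) (c c' : Fin g.k) : c' = c := by
  have := k_le hg h; have := c.2; have := c'.2; exact Fin.ext (by omega)

theorem tk0 (h : g.k = 0) (s t : Tk g.k) : s = t := funext fun j => (h ▸ j).elim0

theorem sp0 (h : g.nc = 0) (s t : Sp g) : s = t := funext fun j => (h ▸ j).elim0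

/-- the transports at the faces of a node -/
structure ND (x : Nod κ lam ν) : Type where
  T0 : ∀ c, Sp (x.2.nd.g0 c) → Sp x.1
  T1 : ∀ c, Sp (x.2.nd.g1 c) → Sp (x.2.nd.g2 c) → Sp x.1
  T2 : ∀ c, Sp (x.2.nd.g2 c) → Sp (x.2.nd.g2' c)
  f0 : ∀ c, FT {t ∈ x.1.dom | t c = 0} (x.2.nd.ι0 c) (x.2.nd.φ0 c) (x.2.nd.n0 c) (T0 c)
  f1 : ∀ c, x.1.wl c = none → ∃ T, FT {t ∈ x.1.dom | t c = 1} (x.2.nd.ι1 c) (x.2.nd.l c 3)
    (x.2.nd.n1 c) T ∧ ∀ a b, T1 c a b = T a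
  f2 : ∀ c, x.1.wl c ≠ none → FT (x.2.nd.g2' c).dom (x.2.nd.ι3 c) (x.2.nd.φ2 c) (x.2.nd.n1 c) (T2 c)
  nk : ∀ c, ∀ i ∈ x.1.wl c, x.2.nd.cap c = false → WT c i false (x.2.nd.ι1 c)
    (x.2.nd.ι2 c ∘ x.2.nd.ι3 c) (x.2.nd.l c) (fun v => (x.2.nd.φ2 c).trans (x.2.nd.r c v)) (T1 c)
  cp : ∀ c, ∀ i ∈ x.1.wl c, x.2.nd.cap c = true → ∃ T, WT c i true (x.2.nd.ι1 c) (x.2.nd.ι2 c)
    (x.2.nd.l c) (x.2.nd.r c) T ∧ ∀ a b, T1 c a b = T a (T2 c b)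

theorem k2' {c : Fin x.1.k} (hc : x.1.wl c ≠ none) (h : (x.2.nd.g2' c).nc ≠ 0) :
    x.1.nc ≠ 0 ∧ (x.2.nd.g2' c).k = 0 := by
  obtain ⟨i, hi⟩ := Option.ne_none_iff_exists'.1 hc
  have := wl_dim (x.2.nd.wl c i hi).1
  have := k_le x.2.nd.ok (by omega)
  omega

theorem ND.ne (x : Nod κ lam ν) : Nonempty (ND x) := by
  have n := x.2.nd.ok
  choose T0 f0 using fun c => fc_tp (x.2.nd.f0 c).2 n (x.2.f0 c).nd.ok (t₀ := 0) ⟨zero_dom _, rfl⟩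
    fun h t ht => funext fun j => sub1 n h c j ▸ ht.2
  choose! T2 f2 using fun c (hc : x.1.wl c ≠ none) =>
    let k := x.2.nd.wl c _ (Option.ne_none_iff_exists'.1 hc).choose_spec
    fc_tp k.2.2.2.1 k.2.1 (x.2.f2 c).nd.ok (zero_dom _) fun h t _ => tk0 (k2' hc h).2 _ _
  have : ∀ c, ∃ T1 : Sp (x.2.nd.g1 c) → Sp (x.2.nd.g2 c) → Sp x.1, (x.1.wl c = none →
      ∃ T, FT {t ∈ x.1.dom | t c = 1} (x.2.nd.ι1 c) (x.2.nd.l c 3) (x.2.nd.n1 c) T ∧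
        ∀ a b, T1 a b = T a) ∧ (∀ i ∈ x.1.wl c, x.2.nd.cap c = false → WT c i false (x.2.nd.ι1 c)
      (x.2.nd.ι2 c ∘ x.2.nd.ι3 c) (x.2.nd.l c) (fun v => (x.2.nd.φ2 c).trans (x.2.nd.r c v)) T1) ∧
      ∀ i ∈ x.1.wl c, x.2.nd.cap c = true → ∃ T, WT c i true (x.2.nd.ι1 c) (x.2.nd.ι2 c)
        (x.2.nd.l c) (x.2.nd.r c) T ∧ ∀ a b, T1 a b = T a (T2 c b) := fun c => by
    rcases hi : x.1.wl c with _ | i
    · obtain ⟨T, k⟩ := fc_tp (x.2.nd.f1 c hi).2.2 n (x.2.f1 c).nd.ok (t₀ := fun _ => 1)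
        ⟨fun _ => ⟨zero_le_one, fun _ => le_rfl⟩, rfl⟩ fun h t ht => funext fun j => sub1 n h c j ▸ ht.2
      exact ⟨fun a _ => T a, fun _ => ⟨T, k, fun _ _ => rfl⟩, by simp, by simp⟩
    have W := x.2.nd.wl c i hi
    cases hc : x.2.nd.cap c
    · obtain ⟨T, k⟩ := wl_tp (wl_lit W.1 (x.2.nd.lit c hc)) n (x.2.f1 c).nd.ok (x.2.f2 c).nd.ok
      exact ⟨T, by simp, by simpa [hc] using k, by simp⟩
    · obtain ⟨T, k⟩ := wl_tp W.1 n (x.2.f1 c).nd.ok W.2.1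
      exact ⟨fun a b => T a (T2 c b), by simp, by simp, by
        simpa using ⟨T, hc ▸ k, fun _ _ => rfl⟩⟩
  choose T1 a1 a2 a3 using this
  exact ⟨⟨T0, T1, T2, f0, a1, f2, a2, a3⟩⟩

/-- the chosen transports -/
def nd (x : Nod κ lam ν) : ND x := (ND.ne x).some

theorem ND.t1 (N : ND x) (c : Fin x.1.k) : (∀ a b, Ts _ a → Ts _ b → Ts _ (N.T1 c a b)) ∧
    ∀ b, (x.1.wl c ≠ none → b = 0) → N.T1 c 0 b = 0 := by
  rcases hi : x.1.wl c with _ | i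
  · obtain ⟨T, k, e⟩ := N.f1 c hi
    exact ⟨fun a b h _ => e a b ▸ k.1.ts a h, fun b _ => (e 0 b).trans k.1.z⟩
  cases hc : x.2.nd.cap c
  · exact ⟨(N.nk c i hi hc).1, fun b h => h (by simp) ▸ (N.nk c i hi hc).2.1⟩
  · obtain ⟨T, k, e⟩ := N.cp c i hi hc
    have j := (N.f2 c (by simp [hi])).1
    exact ⟨fun a b h h' => e a b ▸ k.1 _ _ h (j.ts b h'), fun b h => by
      rw [h (by simp), e, j.z, k.2.1]⟩

/-! ### bump functions -/

/-- the interior of the cube -/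
def inn (g : Gc κ lam ν) : Set (Tk g.k) := {t | ∀ c, 0 < t c ∧ (g.wl c = none → t c < 1)}

/-- bump functions -/
structure Bmp (g : Gc κ lam ν) (b : Tk g.k → ℝ) : Prop where
  sm : ContDiff ℝ ∞ b
  z : ∀ t ∉ inn g, b t = 0
  far : ∃ T, ∀ t c, T ≤ t c → b t = 0
  le : ∀ t, |b t| ≤ 1

theorem bmp_ex (ht : t ∈ inn g) : ∃ b, Bmp g b ∧ b t = 1 := by
  have : inn g ∈ 𝓝 t := eventually_all.2 fun c =>
    ((continuous_apply c).continuousAt.eventually (lt_mem_nhds (ht c).1)).and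
      (eventually_imp_distrib_left.2 fun k =>
        (continuous_apply c).continuousAt.eventually (gt_mem_nhds ((ht c).2 k)))
  obtain ⟨b, a1, a2, a3, a4, a5⟩ := exists_contDiff_tsupport_subset (n := ⊤) this
  obtain ⟨R, hR⟩ := a2.isCompact.isBounded.exists_norm_le
  exact ⟨b, ⟨a3, fun s k => image_eq_zero_of_notMem_tsupport fun j => k (a1 j),
    ⟨R + 1, fun s c k => image_eq_zero_of_notMem_tsupport fun j => by
      linarith [hR s j, norm_le_pi_norm s c, le_abs_self (s c), Real.norm_eq_abs (s c)]⟩,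
    fun s => abs_le.2 ⟨by linarith [(a4 ⟨s, rfl⟩).1], (a4 ⟨s, rfl⟩).2⟩⟩, a5⟩

theorem inn_or (ht : t ∈ g.dom) : t ∈ inn g ∨ (∃ c, t c = 0) ∨ ∃ c, g.wl c = none ∧ t c = 1 := by
  by_contra! h
  exact h.1 fun c => ⟨(ht c).1.lt_of_ne' (h.2.1 c), fun k => ((ht c).2 k).lt_of_ne (h.2.2 c k)⟩

theorem Bmp.clp {b : Tk g.k → ℝ} (h : Bmp g b) (t : Tk g.k) : b (g.clp t) = b t := by
  by_cases k : g.clp t ∈ inn g
  · congr 1
    funext c
    have := k c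
    rcases e : g.wl c with _ | i <;> simp only [Bs.clp, e, Option.elim] at this ⊢ <;> grind
  · rw [h.z _ k, h.z _ fun j => k fun c => ?_]
    have := j c
    rcases e : g.wl c with _ | i <;> simp only [Bs.clp, e, Option.elim] at this ⊢ <;> grind

/-! ### test spinors -/

theorem ts_zero : Ts g 0 := fun _ _ => ⟨contDiff_const, .zero, fun _ => map_zero _⟩

theorem ts_smul {e : Sp g} (h : Ts g e) (r : ℝ) : Ts g (r • e) := fun j t =>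
  ⟨(h j t).sm.const_smul r, (h j t).cpt.mono fun y hy k => hy (by simp [k]),
    fun y => by simp [(h j t).pos]⟩

theorem ts_single (hg : g.OK) {j : Fin g.nc} {η : R4 → Eu ν}
    (h : (g.P t).bg.Tst ((g.P t).bg.ct j).Ξ η) : Ts g (Pi.single j η) := fun j' => by
  rcases eq_or_ne j' j with rfl | k
  · simpa using ts_of hg h
  · simpa [k] using ts_zero j'

/-- good families of test spinors -/
def EK (g : Gc κ lam ν) (E : Tk g.k → Sp g) : Prop := (∀ t, Ts g (E t)) ∧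
  (∀ j, JC univ fun t => E t j) ∧ ∃ s, ∀ t j, ∫ y, ‖E t j y‖ ∂leb R4 ≤ s

theorem ek_smul {b : Tk g.k → ℝ} (hb : ContDiff ℝ ∞ b) (h1 : ∀ t, |b t| ≤ 1) {e : Sp g} (h : Ts g e) :
    EK g fun t => b t • e := by
  obtain ⟨s, hs⟩ := Finite.bddAbove_range fun j => ∫ y, ‖e j y‖ ∂leb R4
  refine ⟨fun t => ts_smul h _, fun j => ⟨((hb.comp contDiff_fst).smul
    ((h j 0).sm.comp contDiff_snd)).contDiffOn, _, (h j 0).cpt, fun t _ y hy => by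
      simp [image_eq_zero_of_notMem_tsupport hy]⟩, s, fun t j => ?_⟩
  simp only [Pi.smul_apply, norm_smul, integral_const_mul]
  exact (mul_le_of_le_one_left (integral_nonneg fun _ => norm_nonneg _) (h1 t)).trans (hs ⟨j, rfl⟩)

theorem EK.add {E E' : Tk g.k → Sp g} (h : EK g E) (h' : EK g E') : EK g (E + E') := by
  obtain ⟨a1, a2, s, a3⟩ := h
  obtain ⟨b1, b2, s', b3⟩ := h'
  have i : ∀ {e : Sp g}, Ts g e → ∀ j, Integrable (fun y => ‖e j y‖) (leb R4) := fun h j =>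
    ((h j 0).sm.continuous.integrable_of_hasCompactSupport (h j 0).cpt).norm
  have k : ∀ t, Ts g (E t + E' t) := fun t j u => ⟨(a1 t j u).sm.add (b1 t j u).sm,
    (a1 t j u).cpt.add (b1 t j u).cpt, fun y => by simp [(a1 t j u).pos, (b1 t j u).pos]⟩
  refine ⟨k, fun j => ?_, s + s', fun t j => (integral_mono (i (k t) j) ((i (a1 t) j).add (i (b1 t) j))
    fun y => norm_add_le _ _).trans ?_⟩
  · obtain ⟨c1, K, c2, c3⟩ := a2 j
    obtain ⟨d1, K', d2, d3⟩ := b2 j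
    exact ⟨c1.add d1, _, c2.union d2, fun t _ y hy => by
      simp [c3 t trivial y fun k => hy (.inl k), d3 t trivial y fun k => hy (.inr k)]⟩
  · exact (integral_add (i (a1 t) j) (i (b1 t) j)).trans_le (add_le_add (a3 t j) (b3 t j))

/-- free parts of the test spinors -/
abbrev VS (κ lam ν : Type) [Fintype κ] [Fintype lam] [Fintype ν] [DecidableEq ν] : Type 1 :=
  ∀ x : Nod κ lam ν, Tk x.1.k → Sp x.1

/-- good free parts -/
def VK (V : VS κ lam ν) : Prop := ∀ x, ∃ b e, Bmp x.1 b ∧ Ts x.1 e ∧ V x = fun t => b t • e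

variable {V : VS κ lam ν}

theorem VK.ts (h : VK V) (x : Nod κ lam ν) (t : Tk x.1.k) : Ts x.1 (V x t) :=
  let ⟨_, _, _, a, e⟩ := h x; e ▸ ts_smul a _

theorem vk0 (x : Nod κ lam ν) : ∃ b e, Bmp x.1 b ∧ Ts x.1 e ∧ (0 : VS κ lam ν) x = fun t => b t • e :=
  ⟨0, 0, ⟨contDiff_const, fun _ _ => rfl, ⟨0, fun _ _ _ => rfl⟩, by simp⟩, ts_zero, by ext; simp⟩

open Classical in
theorem vk_ex {t : Tk y.1.k} (ht : t ∈ inn y.1) {e : Sp y.1} (h : Ts _ e) :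
    ∃ V, VK V ∧ V y t = e ∧ ∀ z ≠ y, V z = 0 := by
  obtain ⟨b, a1, a2⟩ := bmp_ex ht
  refine ⟨update 0 y fun s => b s • e, fun z => ?_, by simp [a2], fun z k => update_of_ne k _ _⟩
  rcases eq_or_ne z y with rfl | k
  · exact ⟨b, e, a1, h, update_self ..⟩
  · rw [update_of_ne k]; exact vk0 z

/-- the test spinors of a system -/
def ets (V : VS κ lam ν) (x : Nod κ lam ν) (t : Tk x.1.k) : Sp x.1 :=
  ∑ c, ((1 - smoothTransition (t c)) • (nd x).T0 c (V ⟨_, x.2.f0 c⟩ 0) +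
    smoothTransition (t c) • (nd x).T1 c (V ⟨_, x.2.f1 c⟩ 0) (V ⟨_, x.2.f2 c⟩ 0)) + V x t

theorem ek_ets (h : VK V) (x : Nod κ lam ν) : EK x.1 (ets V x) := by
  obtain ⟨b, e, a1, a2, a3⟩ := h x
  have s : ∀ c, ContDiff ℝ ∞ fun t : Tk x.1.k => smoothTransition (t c) := fun c =>
    smoothTransition.contDiff.comp (contDiff_apply ℝ ℝ c)
  have := (Finset.sum_induction (s := Finset.univ) _ (EK x.1) (fun _ _ => EK.add)
    ⟨fun _ => ts_zero, fun _ => ⟨contDiffOn_const, ∅, isCompact_empty, fun _ _ _ _ => rfl⟩, 0,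
      fun _ _ => by simp⟩ fun c _ =>
    (ek_smul ((contDiff_const (c := 1)).sub (s c)) (fun t => abs_le.2 ⟨by
      linarith [smoothTransition.le_one (t c)], by linarith [smoothTransition.nonneg (t c)]⟩)
      (((nd x).f0 c).1.ts _ (h.ts ⟨_, x.2.f0 c⟩ 0))).add (ek_smul (s c) (fun t => abs_le.2 ⟨by
        linarith [smoothTransition.nonneg (t c)], smoothTransition.le_one _⟩)
        (((nd x).t1 c).1 _ _ (h.ts ⟨_, x.2.f1 c⟩ 0) (h.ts ⟨_, x.2.f2 c⟩ 0)))).add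
    (a3 ▸ ek_smul a1.sm a1.le a2 : EK x.1 (V x))
  convert this using 1
  funext t
  simp only [ets, Pi.add_apply, Finset.sum_apply]

theorem ets_at (h : x.1.nc ≠ 0) (c : Fin x.1.k) (t : Tk x.1.k) : ets V x t =
    (1 - smoothTransition (t c)) • (nd x).T0 c (V ⟨_, x.2.f0 c⟩ 0) +
      smoothTransition (t c) • (nd x).T1 c (V ⟨_, x.2.f1 c⟩ 0) (V ⟨_, x.2.f2 c⟩ 0) + V x t := by
  rw [ets, Fintype.sum_eq_single c fun c' k => (k (sub1 x.2.nd.ok h c c')).elim]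

theorem ets_ch (h : x.1.nc ≠ 0) (k : x.Ch y) (s : Tk y.1.k) : ets V y s = V y 0 := by
  have e : y.1.k = 0 := by have := k_le x.2.nd.ok h; have := ch_lt k; omega
  rw [ets, tk0 e s 0, Finset.sum_eq_zero fun c => (e ▸ c).elim0, zero_add]

theorem VK.z (h : VK V) {t : Tk x.1.k} (k : t ∉ inn x.1) : V x t = 0 :=
  let ⟨_, _, a, _, e⟩ := h x; by simp [e, a.z t k]

theorem ets_f0 (h : VK V) {c : Fin x.1.k} {t : Tk x.1.k} (e : t c = 0) (s) :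
    ets V x t = (nd x).T0 c (ets V ⟨_, x.2.f0 c⟩ s) := by
  by_cases n : x.1.nc = 0
  · exact sp0 n _ _
  rw [ets_at n c, ets_ch n ⟨c, .inl rfl⟩, h.z fun k => (k c).1.ne' e, e]
  simp

theorem ets_f1 (h : VK V) (c : Fin x.1.k) : ∃ T, ∀ t : Tk x.1.k, (x.1.wl c = none ∧ t c = 1) ∨ T ≤ t c →
    ∀ s, ets V x t = (nd x).T1 c (ets V ⟨_, x.2.f1 c⟩ s) (V ⟨_, x.2.f2 c⟩ 0) := by
  obtain ⟨b, e, a1, -, a3⟩ := h x
  obtain ⟨T, a2⟩ := a1.far
  refine ⟨max 1 T, fun t ht s => ?_⟩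
  by_cases n : x.1.nc = 0
  · exact sp0 n _ _
  rw [ets_at n c, ets_ch n ⟨c, .inr (.inl rfl)⟩, smoothTransition.one_of_one_le
    (ht.elim (·.2.ge) le_of_max_le_left), show V x t = 0 from ht.elim
      (fun j => h.z fun k => ((k c).2 j.1).ne j.2) fun j => by simp [a3, a2 t c (le_of_max_le_right j)]]
  simp

theorem ets_zero (x : Nod κ lam ν) (t : Tk x.1.k) : ets 0 x t = 0 := by
  simp [ets, fun c => ((nd x).f0 c).1.z, fun c => ((nd x).t1 c).2 0 fun _ => rfl]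

theorem ets_rich {t : Tk x.1.k} (ht : t ∈ x.1.dom) {e : Sp x.1} (h : Ts _ e) :
    ∃ V, VK V ∧ ets V x t = e := by
  by_cases n : x.1.nc = 0
  · exact ⟨0, vk0, sp0 n _ _⟩
  have i : ∀ y, x.Ch y → 0 ∈ inn y.1 := fun y k c => by
    have := k_le x.2.nd.ok n; have := ch_lt k; have := c.2; omega
  obtain k | ⟨c, k⟩ | ⟨c, hc, k⟩ := inn_or ht
  · obtain ⟨V, a1, a2, a3⟩ := vk_ex k h
    have z : ∀ y, x.Ch y → V y 0 = 0 := fun y j => by rw [a3 y fun e => (ch_lt j).ne (e ▸ rfl)]; rfl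
    refine ⟨V, a1, ?_⟩
    rw [ets, a2, Finset.sum_eq_zero fun c _ => ?_, zero_add]
    rw [z _ ⟨c, .inl rfl⟩, z _ ⟨c, .inr (.inl rfl)⟩, ((nd x).f0 c).1.z,
      ((nd x).t1 c).2 _ fun j => z _ ⟨c, .inr (.inr ⟨j, rfl⟩)⟩, smul_zero, smul_zero, add_zero]
  · obtain ⟨e', b1, b2⟩ := ((nd x).f0 c).1.sur e h
    obtain ⟨V, a1, a2, -⟩ := vk_ex (i _ ⟨c, .inl rfl⟩) b1
    exact ⟨V, a1, by rw [ets_f0 a1 k 0, ets_ch n ⟨c, .inl rfl⟩, a2, b2]⟩
  · obtain ⟨T, b3, b4⟩ := (nd x).f1 c hc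
    obtain ⟨e', b1, b2⟩ := b3.1.sur e h
    obtain ⟨V, a1, a2, -⟩ := vk_ex (i _ ⟨c, .inr (.inl rfl)⟩) b1
    exact ⟨V, a1, by
      rw [(ets_f1 a1 c).choose_spec t (.inl ⟨hc, k⟩) 0, ets_ch n ⟨c, .inr (.inl rfl)⟩, a2, b4, b2]⟩

/-! ### functions -/

theorem sec_fc {D ι φ n} (h : g.Fc g' D ι φ n) (hD : D.Nonempty) {f : g.X.M → ℝ}
    (hf : f ∈ Sec g.X.I (triv g.X.M ℝ)) : f ∘ φ ∈ Sec g'.X.I (triv g'.X.M ℝ) := by
  obtain ⟨e, r, -, -, -, -, -, k⟩ := h.iso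
  obtain ⟨_, _, _, _, -, k⟩ := k _ hD.some_mem
  obtain ⟨_, m⟩ := k.iso.g
  exact ⟨hf.1.comp (contMDiffOn_univ.1 (k.src ▸ m.sm)), by
    simpa [pull, k.src] using hcs_pull (φ := φ) hf.2.1 (k.tgt ▸ subset_univ _), fun _ => rfl⟩

variable {mk : Mk κ lam ν} {𝒦 : Set (Nod κ lam ν)}

theorem sc_rich (hc : Cld 𝒦) (hw : ∀ x ∈ 𝒦, x.2.WF mk) (hx : x ∈ 𝒦) {t : Tk x.1.k} (ht : t ∈ x.1.dom)
    {f : x.1.X.M → ℝ} (hf : f ∈ Sec x.1.X.I (triv x.1.X.M ℝ)) : ∃ F : ∀ y : Nod κ lam ν, Sc y.1,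
      (∀ y ∈ 𝒦, (F y).OK ∧ Con y (F y) F) ∧ F x t = f := by
  induction' hn : x.1.k using Nat.strong_induction_on with n ih generalizing x
  subst hn
  obtain k | ⟨c, k⟩ | ⟨c, e, k⟩ := inn_or ht
  · obtain ⟨b, a1, a2⟩ := bmp_ex k
    obtain ⟨T, a3⟩ := a1.far
    obtain ⟨F, b1, b2⟩ := extG mk 𝒦 hc hw x hx _ (ok_smul (ok_of (f := fun _ => f)
      (fun _ _ y => .of_fixed (hf.1 y)) hf.2.1 (fun _ _ => image_eq_zero_of_notMem_tsupport)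
      fun _ => rfl) a1.sm a1.clp) ⟨fun c t _ k y => by simp [a1.z t fun j => (j c).1.ne' k],
        fun c e t _ k y => by simp [a1.z t fun j => ((j c).2 e).ne k],
        fun c _ => ⟨T, fun t k => by simp [a3 t c k, psh_zero]⟩⟩
    exact ⟨F, b2, by simp [b1, a2]⟩
  · have q := (x.2.nd.f0 c).2
    obtain ⟨F, b1, b2⟩ := ih _ (ch_lt ⟨c, .inl rfl⟩) (hc x hx c).1 ((fc_mt q).dom ht)
      (sec_fc q ⟨t, ht, k⟩ hf) rfl
    exact ⟨F, b1, ((eq_psh (gl0 x.2 c).1 (gl0 x.2 c).2).2 fun y => ((b1 x hx).2.f0 c t ht k y).trans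
      (congrFun b2 y)).trans ((eq_psh (gl0 x.2 c).1 (gl0 x.2 c).2).2 fun _ => rfl).symm⟩
  · have q := (x.2.nd.f1 c e).2.2
    obtain ⟨F, b1, b2⟩ := ih _ (ch_lt ⟨c, .inr (.inl rfl)⟩) (hc x hx c).2.1 ((fc_mt q).dom ht)
      (sec_fc q ⟨t, ht, k⟩ hf) rfl
    exact ⟨F, b1, ((eq_psh (gl1 x.2 e).1 (gl1 x.2 e).2).2 fun y => ((b1 x hx).2.f1 c e t ht k y).trans
      (congrFun b2 y)).trans ((eq_psh (gl1 x.2 e).1 (gl1 x.2 e).2).2 fun _ => rfl).symm⟩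

end Crest.Agent.X212.Ext33
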