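import Crest.Agent.X212.Ext33.Eta

/-!
# Row 212, LV-EXT-B (helper33): forms and test spinors at walls
-/

set_option autoImplicit false
set_option linter.unusedSectionVars false
noncomputable section
open scoped Manifold ContDiff Topology InnerProductSpace
open MeasureTheory Set Function Filter

namespace Crest.Agent.X212.Ext33
open An Cyf70 Sw Flo2 Hp13.Ext Sob92
open M (Mf pm)
open Nd18 (Jv)

section psh
variable {A B C V : Type} [TopologicalSpace A] [TopologicalSpace B] [TopologicalSpace C]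
  [AddCommMonoid V] {l : OpenPartialHomeomorph A B} {r : OpenPartialHomeomorph C B} {K₁ : Set A}
  {K₂ : Set C} {u₁ : A → V} {u₂ : C → V}

theorem psh_ap {x : A} (h : x ∈ l.source) : psh l u₁ (l x) = u₁ x := by
  simp [psh, indicator_of_mem (l.map_source h), l.left_inv h]

theorem psh_z (h0 : ∀ x ∉ K₁, u₁ x = 0) {y : B} (hy : y ∉ l '' K₁) : psh l u₁ y = 0 :=
  indicator_apply_eq_zero.2 fun k => h0 _ fun j => hy ⟨_, j, l.right_inv k⟩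

/-- compact sets with disjoint images -/
structure Sep (l : OpenPartialHomeomorph A B) (r : OpenPartialHomeomorph C B) (K₁ : Set A)
    (K₂ : Set C) : Prop where
  c₁ : IsCompact K₁
  c₂ : IsCompact K₂
  s₁ : K₁ ⊆ l.source
  s₂ : K₂ ⊆ r.source
  dj : Disjoint (l '' K₁) (r '' K₂)

theorem Sep.symm (h : Sep l r K₁ K₂) : Sep r l K₂ K₁ := ⟨h.c₂, h.c₁, h.s₂, h.s₁, h.dj.symm⟩

theorem Sep.ev [T2Space B] (h : Sep l r K₁ K₂) (h0 : ∀ x ∉ K₂, u₂ x = 0) {y : A} (hy : y ∈ K₁) :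
    (psh l u₁ + psh r u₂) ∘ l =ᶠ[𝓝 y] u₁ := by
  filter_upwards [l.open_source.mem_nhds (h.s₁ hy), (l.continuousAt (h.s₁ hy)).eventually
    ((h.c₂.image_of_continuousOn (r.continuousOn.mono h.s₂)).isClosed.isOpen_compl.mem_nhds
      (disjoint_left.1 h.dj (mem_image_of_mem _ hy)))] with z a b
  rw [comp_apply, Pi.add_apply, psh_ap a, psh_z h0 b, add_zero]

end psh

theorem jv_mono {p q : Option ℝ} {d d' : ℝ} (h : d ≤ d') :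
    Jv (p.map (· + d')) (q.map (· - d')) ⊆ Jv (p.map (· + d)) (q.map (· - d)) := fun s k => by
  simp only [Jv, Option.mem_def, Option.map_eq_some_iff, mem_ofPred, forall_exists_index, and_imp,
    forall_apply_eq_imp_iff₂] at k ⊢
  exact ⟨fun a e => by linarith [k.1 a e], fun a e => by linarith [k.2 a e]⟩

variable {κ lam ν : Type} [Fintype κ] [Fintype lam] [Fintype ν] [DecidableEq ν]

section frm
variable {X X₁ X₂ : Mf 4} {nc nc₁ nc₂ n : ℕ} {b : Bg X.I X.M κ lam ν nc} {b₁ : Bg X₁.I X₁.M κ lam ν nc₁}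
  {b₂ : Bg X₂.I X₂.M κ lam ν nc₂} {l : OpenPartialHomeomorph X₁.M X.M}
  {r : OpenPartialHomeomorph X₂.M X.M} {K₁ : Set X₁.M} {K₂ : Set X₂.M}
  {F : Fin 3 → Fin n → X.M → ℝ} {F₁ : Fin 3 → Fin n → X₁.M → ℝ} {F₂ : Fin 3 → Fin n → X₂.M → ℝ}

theorem frm_zero {f g h : Fin n → X.M → ℝ} {x : X.M} (e : ∀ a, f a x = 0) : frm b f g h x = 0 := by
  ext s; simp [Cyc79.frm_apply, e]

theorem frm_lit (L : b₁.Lit b l) {y : X₁.M} (hy : y ∈ l.source) (sm : ∀ i a, Sm X.I (F i a))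
    (e : ∀ i a, F i a ∘ l =ᶠ[𝓝 y] F₁ i a) :
    frm b (F 0) (F 1) (F 2) (l y) = frm b₁ (F₁ 0) (F₁ 1) (F₁ 2) y := by
  have D : ∀ i a j, b.F.D j (F i a) (l y) = b₁.F.D j (F₁ i a) y := fun i a j =>
    (iso_D_comp L.iso hy ((sm i a).mdifferentiableAt (by simp)) j).symm.trans (dv_congr (e i a))
  ext s
  simp only [Cyc79.frm_apply, D, Base.sd, Base.a2, Base.st, L.P _ _ y hy, L.o _ _ _ _ y hy,
    fun a => show F 0 a (l y) = _ from (e 0 a).self_of_nhds]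

theorem frm_split (L₁ : b₁.Lit b l) (L₂ : b₂.Lit b r) (S : Sep l r K₁ K₂) (sm : ∀ i a, Sm X.I (F i a))
    (z₁ : ∀ i a, ∀ x ∉ K₁, F₁ i a x = 0) (z₂ : ∀ i a, ∀ x ∉ K₂, F₂ i a x = 0)
    (e : ∀ i a, F i a = psh l (F₁ i a) + psh r (F₂ i a)) : frm b (F 0) (F 1) (F 2) =
      psh l (frm b₁ (F₁ 0) (F₁ 1) (F₁ 2)) + psh r (frm b₂ (F₂ 0) (F₂ 1) (F₂ 2)) := by
  have y₁ : ∀ x ∉ K₁, frm b₁ (F₁ 0) (F₁ 1) (F₁ 2) x = 0 := fun x k => frm_zero fun a => z₁ 0 a x k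
  have y₂ : ∀ x ∉ K₂, frm b₂ (F₂ 0) (F₂ 1) (F₂ 2) x = 0 := fun x k => frm_zero fun a => z₂ 0 a x k
  funext x
  by_cases k₁ : x ∈ l '' K₁
  · obtain ⟨y, hy, rfl⟩ := k₁
    exact (frm_lit L₁ (S.s₁ hy) sm fun i a => e i a ▸ S.ev (z₂ i a) hy).trans
      (S.ev y₂ hy).self_of_nhds.symm
  by_cases k₂ : x ∈ r '' K₂
  · obtain ⟨y, hy, rfl⟩ := k₂
    rw [add_comm]
    exact (frm_lit L₂ (S.s₂ hy) sm fun i a => (e i a).trans (add_comm _ _) ▸ S.symm.ev (z₁ i a) hy).trans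
      (S.symm.ev y₁ hy).self_of_nhds.symm
  rw [Pi.add_apply, psh_z y₁ k₁, psh_z y₂ k₂, add_zero]
  exact frm_zero fun a => by rw [e, Pi.add_apply, psh_z (z₁ 0 a) k₁, psh_z (z₂ 0 a) k₂, add_zero]

theorem bd_psh (L : b₁.Lit b l) (hK : IsCompact K₁) (hs : K₁ ⊆ l.source) {u : X₁.M → F2 κ}
    (hu : Sm X₁.I u) (h0 : ∀ x ∉ K₁, u x = 0) {s : ℝ} (h : b₁.F.CB 6 u s ∧ b₁.F.nrm 0 u ≤ s) :
    Sm X.I (psh l u) ∧ HasCompactSupport (psh l u) ∧ b.F.CB 6 (psh l u) |s| ∧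
      b.F.nrm 0 (psh l u) ≤ |s| := by
  have c := HasCompactSupport.intro hK h0
  have t : tsupport u ⊆ l.symm.target :=
    (closure_minimal (s := support u) (fun x hx => by_contra fun k => hx (h0 x k)) hK.isClosed).trans hs
  have a := Adm.of_isCompact c t
  rw [show psh l u = pull l.symm u from rfl]
  exact ⟨sm_pull (iso_symm L.iso) hu a, hcs_pull c t, CB_pull (iso_symm L.iso) 6 hu a h.1,
    (nrm_pull (iso_symm L.iso) 0 hu a).trans_le (h.2.trans (le_abs_self s))⟩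

end frm

variable {g g₁ g₂ g₂' : Gc κ lam ν} {c : Fin g.k} {i : g.N} {cap : Bool} {ι₁ : Fin g₁.k → Fin g.k}
  {ι₂ : Fin g₂.k → Fin g.k} {l : ℝ → OpenPartialHomeomorph g₁.X.M g.X.M}
  {r : ℝ → OpenPartialHomeomorph g₂.X.M g.X.M} {n : ℕ}

theorem wl_lit (H : g.Wl g₁ g₂ c i cap ι₁ ι₂ l r) {ι : Fin g₂'.k → Fin g₂.k}
    {φ : OpenPartialHomeomorph g₂'.X.M g₂.X.M}
    (h : ∃ h : g₂ = g₂', (∀ j, (ι j).1 = j.1) ∧ φ = h ▸ OpenPartialHomeomorph.refl _) :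
    g.Wl g₁ g₂' c i cap ι₁ (ι₂ ∘ ι) l fun v => φ.trans (r v) := by
  obtain ⟨rfl, a, rfl⟩ := h
  obtain rfl : ι = id := funext fun j => Fin.ext (a j)
  simpa using H

theorem cpt_all (hg : g.OK) {F : Fin 3 → Fin n → Sc g} (o : ∀ i a, (F i a).OK) :
    ∃ K, IsCompact K ∧ ∀ i a t, ∀ x ∉ K, F i a t x = 0 := by
  choose K a b using fun i a => ok_cpt hg (o i a)
  exact ⟨_, isCompact_iUnion fun i => isCompact_iUnion (a i), fun i a t x k => b i a t x fun j =>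
    k (mem_iUnion.2 ⟨i, mem_iUnion.2 ⟨a, j⟩⟩)⟩

theorem short (hg : g.OK) (hi : g.wl c = some i) {t : Tk g.k} {ρ : ℝ} (h3 : 3 ≤ ρ) (ht : t c ≤ ρ) :
    ∀ K ∈ (g.P t).nk i, ∀ τ, τ ∉ K.deep ρ := fun K e τ h => by
  obtain ⟨h1, -, h2⟩ := hg.wl c i hi
  obtain ⟨a, b, p, q⟩ : ∃ a b, K.p = some a ∧ K.q = some b := by
    obtain k | ⟨K', e', a, b, p, q, -⟩ := hg.fam.nk t (hg.Q ▸ trivial) i h1
    · obtain ⟨a, p, q⟩ := k.self_of_nhds K e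
      exact ⟨_, _, p, q⟩
    · obtain rfl : K = K' := Option.some_injective _ (Eq.symm e |>.trans e')
      exact ⟨_, _, p, q⟩
  have k : (g.P t).len i = b - a := by rw [Pz.len, show (g.P t).nk i = some K from e]; simp [p, q]
  have : a + ρ < τ ∧ τ < b - ρ := by simpa [Nk.deep, Jv, p, q] using h
  rcases le_total (t c) 3 with j | j
  · linarith [(h2 t).2.1 j]
  · linarith [(h2 t).2.2 j]

/-- the bounds of `Tm.OK` -/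
def Bd (g : Gc κ lam ν) (fo : Tk g.k → g.X.M → F2 κ) (s : ℝ) (t : Tk g.k) : Prop :=
  (g.P t).bg.F.CB 6 (fo t) s ∧ (g.P t).bg.F.nrm 0 (fo t) ≤ s

variable (c i cap ι₁ ι₂ l r) in
/-- the transport at a wall -/
def WT (T : Sp g₁ → Sp g₂ → Sp g) : Prop := (∀ η₁ η₂, Ts g₁ η₁ → Ts g₂ η₂ → Ts g (T η₁ η₂)) ∧
  T 0 0 = 0 ∧ ∀ (W : Type) (τ : Tm g W) (τ₁ : Tm g₁ W) (τ₂ : Tm g₂ W), (∀ w, ∃ T', ∀ t, T' ≤ t c →
    τ.fo w t = psh (l (t c)) (τ₁.fo w (t ∘ ι₁)) + psh (r (t c)) (τ₂.fo w (t ∘ ι₂)) ∧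
      τ.η w t = T (τ₁.η w (t ∘ ι₁)) (τ₂.η w (t ∘ ι₂))) → g.WlT g₁ g₂ c i cap ι₁ ι₂ l r τ τ₁ τ₂

theorem wl_dim (H : g.Wl g₁ g₂ c i cap ι₁ ι₂ l r) : g₁.k + g₂.k + 1 = g.k ∧ g₁.nc + g₂.nc = g.nc := by
  obtain ⟨-, -, -, -, -, -, e, -⟩ := H.spl
  exact ⟨by simpa using Fintype.card_of_bijective H.bij, by simpa using Fintype.card_congr e⟩

variable (H : g.Wl g₁ g₂ c i cap ι₁ ι₂ l r) (hg : g.OK) (h₁ : g₁.OK) (h₂ : g₂.OK) (hi : g.wl c = some i)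
include H hg h₁ h₂ hi

theorem sep {K₁ : Set g₁.X.M} {K₂ : Set g₂.X.M} (c₁ : IsCompact K₁) (c₂ : IsCompact K₂) :
    ∃ ρ ≥ (3 : ℝ), ∀ t : Tk g.k, ρ ≤ t c → (g₁.P (t ∘ ι₁)).bg.Lit (g.P t).bg (l (t c)) ∧
      (g₂.P (t ∘ ι₂)).bg.Lit (g.P t).bg (r (t c)) ∧ Sep (l (t c)) (r (t c)) K₁ K₂ ∧
      ∀ K ∈ (g.P t).nk i, ∀ z ∈ univ ×ˢ K.deep ρ, K.ψ z ∉ l (t c) '' K₁ ∧ K.ψ z ∉ r (t c) '' K₂ := by
  obtain ⟨j₁, a1, j₂, a2, r₁, r₂, e, -, -, -, -, -, -, -, -, -, -, ⟨δ, W⟩, ε, hε, f1, f2⟩ := H.spl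
  obtain ⟨x₀⟩ := hg.fam.site.con.toNonempty
  obtain ⟨S⟩ := sd_of hg h₁ hi (δ := fun v => (δ v).1) (fun t ht => (W t ht).l') ((h₁.out _).2 (by
    cases cap
    exacts [Or.inl a1, Or.inr a1])) hε f1 x₀
  obtain ⟨S'⟩ := sd_of hg h₂ hi (δ := fun v => (δ v).2) (fun t ht => (W t ht).r') ((h₂.inn _).2 a2)
    hε f2 x₀
  obtain ⟨R, hR⟩ := c₁.bddAbove_image S.cd.continuousOn
  obtain ⟨R', hR'⟩ := c₂.bddAbove_image S'.cd.continuousOn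
  have p := le_abs_self R
  have p' := le_abs_self R'
  have q := abs_nonneg R
  have q' := abs_nonneg R'
  refine ⟨|R| + |R'| + 3, by linarith, fun t ht => ?_⟩
  have t3 : 3 ≤ t c := by linarith
  obtain ⟨-, K, a, eK, pK, qK⟩ := str hg hi t3
  have s₁ : K₁ ⊆ (l (t c)).source := fun x hx => by
    rw [S.src _ t3, mem_ofPred]; linarith [hR (mem_image_of_mem _ hx)]
  have s₂ : K₂ ⊆ (r (t c)).source := fun x hx => by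
    rw [S'.src _ t3, mem_ofPred]; linarith [hR' (mem_image_of_mem _ hx)]
  have k₁ : ∀ y, ∀ u ∈ Ioo 0 (t c), nn i x₀ true t (y, u) ∈ l (t c) '' K₁ → u ≤ R :=
    fun y u hu ⟨x, hx, e⟩ => S.eq t3 (s₁ hx) hu e ▸ hR (mem_image_of_mem _ hx)
  have k₂ : ∀ y, ∀ u ∈ Ioo 0 (t c), nn i x₀ true t (y, u) ∈ r (t c) '' K₂ → t c - u ≤ R' :=
    fun y u hu ⟨x, hx, e⟩ => S'.eq t3 (s₂ hx) ⟨sub_pos.2 hu.2, sub_lt_self _ hu.1⟩
      (e.trans (nn_flip hg hi x₀ true t t3 y u).symm) ▸ hR' (mem_image_of_mem _ hx)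
  refine ⟨(W t t3).l'.lit, (W t t3).r'.lit, ⟨c₁, c₂, s₁, s₂, disjoint_left.2 fun x m₁ m₂ => ?_⟩,
    fun K' e' z hz => ?_⟩
  · obtain ⟨⟨y, u⟩, hu, rfl⟩ : x ∈ nn i x₀ true t '' (univ ×ˢ Ioo 0 (t c)) := by
      rw [nn_img eK pK qK, ← (W t t3).cap K eK]
      exact ⟨(image_mono s₁ m₁ :).choose_spec.2 ▸ (l _).map_source (image_mono s₁ m₁ :).choose_spec.1,
        (image_mono s₂ m₂ :).choose_spec.2 ▸ (r _).map_source (image_mono s₂ m₂ :).choose_spec.1⟩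
    linarith [k₁ y u hu.2 m₁, k₂ y u hu.2 m₂]
  · obtain rfl : K = K' := Option.some_injective _ (eK.symm.trans e')
    have m : a + (|R| + |R'| + 3) < z.2 ∧ z.2 < a + t c - (|R| + |R'| + 3) := by
      simpa [Nk.deep, Jv, pK, qK] using hz.2
    have e : K.ψ z = nn i x₀ true t (z.1, z.2 - a) := by simp [nn, eK, org, pK, pm]
    have u : z.2 - a ∈ Ioo 0 (t c) := ⟨by linarith, by linarith⟩
    rw [e]
    exact ⟨fun k => by linarith [k₁ _ _ u k], fun k => by linarith [k₂ _ _ u k]⟩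

theorem wall {F : Fin 3 → Fin n → Sc g} {F₁ : Fin 3 → Fin n → Sc g₁} {F₂ : Fin 3 → Fin n → Sc g₂}
    (o : ∀ i a, (F i a).OK) (o₁ : ∀ i a, (F₁ i a).OK) (o₂ : ∀ i a, (F₂ i a).OK)
    (e : ∀ i a, ∃ T, ∀ t, T ≤ t c →
      F i a t = psh (l (t c)) (F₁ i a (t ∘ ι₁)) + psh (r (t c)) (F₂ i a (t ∘ ι₂))) :
    ∃ T, (∀ t, T ≤ t c →
      fm g F t = psh (l (t c)) (fm g₁ F₁ (t ∘ ι₁)) + psh (r (t c)) (fm g₂ F₂ (t ∘ ι₂))) ∧
      (∀ t, ∀ K ∈ (g.P t).nk i, ∀ x ∈ univ ×ˢ K.deep T, fm g F t (K.ψ x) = 0) ∧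
      ∀ s₁ s₂, (∀ t, Bd g₁ (fm g₁ F₁) s₁ t) → (∀ t, Bd g₂ (fm g₂ F₂) s₂ t) → ∀ t, T ≤ t c →
        Bd g (fm g F) (|s₁| + |s₂|) t := by
  obtain ⟨K₁, c₁, z₁⟩ := cpt_all h₁ o₁
  obtain ⟨K₂, c₂, z₂⟩ := cpt_all h₂ o₂
  obtain ⟨ρ, h3, k⟩ := sep H hg h₁ h₂ hi c₁ c₂
  choose T hT using e
  obtain ⟨T₀, b⟩ := Finite.bddAbove_range (uncurry T)
  have y₁ : ∀ t, ∀ x ∉ K₁, fm g₁ F₁ t x = 0 := fun t x k => frm_zero fun a => z₁ 0 a t x k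
  have y₂ : ∀ t, ∀ x ∉ K₂, fm g₂ F₂ t x = 0 := fun t x k => frm_zero fun a => z₂ 0 a t x k
  have s : ∀ t, max ρ T₀ ≤ t c →
      fm g F t = psh (l (t c)) (fm g₁ F₁ (t ∘ ι₁)) + psh (r (t c)) (fm g₂ F₂ (t ∘ ι₂)) := fun t ht =>
    let ⟨a1, a2, a3, _⟩ := k t (le_of_max_le_left ht)
    frm_split (F := fun i a => F i a t) (F₁ := fun i a => F₁ i a (t ∘ ι₁))
      (F₂ := fun i a => F₂ i a (t ∘ ι₂)) a1 a2 a3 (fun i a => (o i a).sm.sm trivial) (fun i a => z₁ i a _)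
      (fun i a => z₂ i a _) fun i a => hT i a t ((b ⟨(i, a), rfl⟩).trans (le_of_max_le_right ht))
  refine ⟨max ρ T₀, s, fun t K eK x hx => ?_, fun s₁ s₂ b₁ b₂ t ht => ?_⟩
  · rcases le_total (t c) (max ρ T₀) with j | j
    · exact (short hg hi (h3.le.trans (le_max_left _ _)) j K eK _ hx.2).elim
    · have := (k t (le_of_max_le_left j)).2.2.2 K eK x ⟨trivial, jv_mono (le_max_left ρ T₀) hx.2⟩
      rw [s t j, Pi.add_apply, psh_z (y₁ _) this.1, psh_z (y₂ _) this.2, add_zero]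
  · obtain ⟨a1, a2, a3, -⟩ := k t (le_of_max_le_left ht)
    obtain ⟨d1, d2, d3, d4⟩ := bd_psh a1 c₁ a3.s₁ ((Cyc79.xf_fam h₁ o₁).1 _).1 (y₁ _) (b₁ _)
    obtain ⟨d5, d6, d7, d8⟩ := bd_psh a2 c₂ a3.s₂ ((Cyc79.xf_fam h₂ o₂).1 _).1 (y₂ _) (b₂ _)
    rw [Bd, s t ht]
    exact ⟨CB_add d1 d5 d3 d7, (nrm_add_le _ d1 d2 d5 d6).trans (add_le_add d4 d8)⟩

omit hi in
theorem wl_tp : ∃ T, WT c i cap ι₁ ι₂ l r T := by
  obtain ⟨j₁, a1, j₂, a2, r₁, r₂, e, b1, b2, b3, b4, b5, b6, b7, b8, b9, b10, ⟨δ, W⟩, -⟩ := H.spl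
  refine ⟨fun η₁ η₂ => Sum.elim η₁ η₂ ∘ e.symm, fun η₁ η₂ k₁ k₂ j => ?_, ?_, fun _ τ τ₁ τ₂ k =>
    ⟨H.bij, j₁, a1, j₂, a2, r₁, r₂, e, b1, b2, b3, b4, b5, b6, b7, b8, b9, b10, ⟨δ, W⟩, fun w =>
      (k w).imp fun T k t ht => ⟨(k t ht).1, fun j => by simp [(k t ht).2], fun j => by simp [(k t ht).2]⟩⟩⟩
  · have key : ∀ {X₁ X : Mf 4} {n₁ n : ℕ} {b₁ : Bg X₁.I X₁.M κ lam ν n₁} {b : Bg X.I X.M κ lam ν n}
        {l : OpenPartialHomeomorph X₁.M X.M}, b₁.Lit b l → ∀ {C : Cut X₁.M κ ν}, b₁.CutOK C →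
        C.Ξ.target ⊆ l.source → ∀ {Ξ : R4 → X.M}, (∀ y, Ξ y = l (C.Ξ y)) → ∀ {η}, b₁.Tst C.Ξ η →
        b.Tst Ξ η := fun L C o s Ξ e η k => ⟨k.sm, k.cpt, fun y => by
      have m := s (C.Ξ.map_source (o.src ▸ mem_univ y))
      simpa only [e, Bg.pp, Bg.vol, L.p _ m, L.ρ _ _ m, L.o _ _ _ _ _ m] using k.pos y⟩
    have S := W (fun _ => 3) le_rfl
    obtain ⟨j | j, rfl⟩ := e.surjective j
    · simpa using ts_of hg (key S.l'.lit ((bgok h₁ _).ct j) (S.l'.ct j).1 (S.l'.ct j).2.1 (k₁ j _))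
    · simpa using ts_of hg (key S.r'.lit ((bgok h₂ _).ct j) (S.r'.ct j).1 (S.r'.ct j).2.1 (k₂ j _))
  · simp

end Crest.Agent.X212.Ext33
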